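import Vale.Agent.P011UGB4.Defs

/-!
Isotropic hermitian planes over quaternion division algebras: the unitary group is projectively
simple, in every characteristic.
-/

set_option autoImplicit false
set_option linter.all false

namespace Vale.Agent.P011UGB5

open Matrix Vale.Agent.P011L Vale.Agent.P011UGB4
open scoped Quaternion

theorem ps_congr {G G' : Type} [Group G] [Group G'] (e : G ≃* G') (h : PSimple G') :
    PSimple G := fun N h1 h2 => by
  have := h (N.comap e.symm.toMonoidHom) (h1.comap _) fun h3 => h2 fun g hg =>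
    Subgroup.mem_center_iff.2 fun x => e.injective (by
      rw [map_mul, map_mul]
      exact Subgroup.mem_center_iff.1 (h3 (show e.symm (e g) ∈ N by rwa [e.symm_apply_apply])) _)
  refine eq_top_iff.2 fun g _ => ?_
  have h4 : e g ∈ N.comap e.symm.toMonoidHom := this ▸ Subgroup.mem_top _
  rwa [Subgroup.mem_comap, MulEquiv.coe_toMonoidHom, e.symm_apply_apply] at h4

section Conj
variable {Q : Type} [Ring Q] [StarRing Q]

theorem mem_UH {H : Matrix (Fin 2) (Fin 2) Q} {g : (Matrix (Fin 2) (Fin 2) Q)ˣ} :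
    g ∈ UH H ↔ g.1ᴴ * H * g.1 = H := Iff.rfl

theorem cj_mem {H H' : Matrix (Fin 2) (Fin 2) Q} (P : (Matrix (Fin 2) (Fin 2) Q)ˣ)
    (hP : P.1ᴴ * H * P.1 = H') {g : (Matrix (Fin 2) (Fin 2) Q)ˣ} (hg : g ∈ UH H) :
    P⁻¹ * g * P ∈ UH H' := by
  rw [mem_UH] at hg ⊢
  have e : P.1 * (P⁻¹ * g * P).1 = g.1 * P.1 := by
    rw [← Units.val_mul, ← Units.val_mul, mul_assoc P⁻¹, mul_inv_cancel_left]
  calc (P⁻¹ * g * P).1ᴴ * H' * (P⁻¹ * g * P).1
      = (P.1 * (P⁻¹ * g * P).1)ᴴ * H * (P.1 * (P⁻¹ * g * P).1) := by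
        rw [← hP, conjTranspose_mul]; simp only [Matrix.mul_assoc]
    _ = P.1ᴴ * (g.1ᴴ * H * g.1) * P.1 := by
        rw [e, conjTranspose_mul]; simp only [Matrix.mul_assoc]
    _ = H' := by rw [hg, hP]

theorem cj_inv {H H' : Matrix (Fin 2) (Fin 2) Q} (P : (Matrix (Fin 2) (Fin 2) Q)ˣ)
    (hP : P.1ᴴ * H * P.1 = H') : (P⁻¹).1ᴴ * H' * (P⁻¹).1 = H := by
  rw [← hP, ← Matrix.mul_assoc, ← Matrix.mul_assoc, ← conjTranspose_mul, Matrix.mul_assoc,
    Units.mul_inv, conjTranspose_one, Matrix.one_mul, Matrix.mul_one]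

/-- Change of basis. -/
def cjE {H H' : Matrix (Fin 2) (Fin 2) Q} (P : (Matrix (Fin 2) (Fin 2) Q)ˣ)
    (hP : P.1ᴴ * H * P.1 = H') : UH H ≃* UH H' where
  toFun g := ⟨P⁻¹ * g.1 * P, cj_mem P hP g.2⟩
  invFun g := ⟨P⁻¹⁻¹ * g.1 * P⁻¹, cj_mem P⁻¹ (cj_inv P hP) g.2⟩
  left_inv g := Subtype.ext (by simp [mul_assoc])
  right_inv g := Subtype.ext (by simp [mul_assoc])
  map_mul' a b := Subtype.ext (by simp [mul_assoc])

end Conj

section Split
variable {Q : Type} [DivisionRing Q] [StarRing Q]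

/-- The hyperbolic plane. -/
def J (Q : Type) [Ring Q] : Matrix (Fin 2) (Fin 2) Q := !![0, 1; 1, 0]

/-- Skew elements. -/
def Sk (t : Q) : Prop := star t = -t

theorem Sk.neg {t : Q} (h : Sk t) : Sk (-t) := by unfold Sk at *; rw [star_neg, h]
theorem Sk.add {t s : Q} (h : Sk t) (h' : Sk s) : Sk (t + s) := by
  unfold Sk at *; rw [star_add, h, h', neg_add]
theorem Sk.inv {t : Q} (h : Sk t) : Sk t⁻¹ := by unfold Sk at *; rw [star_inv₀, h, inv_neg]
theorem Sk.zero : Sk (0 : Q) := by unfold Sk; simp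
theorem Sk.cj {t : Q} (h : Sk t) (c : Q) : Sk (c * t * star c) := by
  unfold Sk at *; rw [star_mul, star_mul, star_star, h]; noncomm_ring

/-- Entries. -/
def en (g : UH (J Q)) (i j : Fin 2) : Q := g.1.1 i j

theorem en_ext {g h : UH (J Q)} (h1 : en g 0 0 = en h 0 0) (h2 : en g 0 1 = en h 0 1)
    (h3 : en g 1 0 = en h 1 0) (h4 : en g 1 1 = en h 1 1) : g = h := by
  refine Subtype.ext (Units.ext ?_)
  ext i j
  fin_cases i <;> fin_cases j <;> assumption

theorem en_mul (g h : UH (J Q)) (i j : Fin 2) :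
    en (g * h) i j = en g i 0 * en h 0 j + en g i 1 * en h 1 j := by
  show (g.1.1 * h.1.1) i j = _
  rw [Matrix.mul_apply, Fin.sum_univ_two]; rfl

theorem rel (g : UH (J Q)) (i j : Fin 2) :
    star (en g 0 i) * en g 1 j + star (en g 1 i) * en g 0 j = J Q i j := by
  have h := congrFun (congrFun (mem_UH.1 g.2) i) j
  rw [← h]
  simp [Matrix.mul_apply, Fin.sum_univ_two, J, en, add_comm]

/-- Upper unipotent elements. -/
def u (t : Q) (h : Sk t) : UH (J Q) :=
  ⟨⟨!![1, t; 0, 1], !![1, -t; 0, 1], by ext i j; fin_cases i <;> fin_cases j <;> simp [Matrix.mul_apply, Fin.sum_univ_two],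
    by ext i j; fin_cases i <;> fin_cases j <;> simp [Matrix.mul_apply, Fin.sum_univ_two]⟩, by
    rw [mem_UH]
    ext i j
    fin_cases i <;> fin_cases j <;> simp [Matrix.mul_apply, Fin.sum_univ_two, J, show star t = -t from h]⟩

/-- Lower unipotent elements. -/
def v (t : Q) (h : Sk t) : UH (J Q) :=
  ⟨⟨!![1, 0; t, 1], !![1, 0; -t, 1], by ext i j; fin_cases i <;> fin_cases j <;> simp [Matrix.mul_apply, Fin.sum_univ_two],
    by ext i j; fin_cases i <;> fin_cases j <;> simp [Matrix.mul_apply, Fin.sum_univ_two]⟩, by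
    rw [mem_UH]
    ext i j
    fin_cases i <;> fin_cases j <;> simp [Matrix.mul_apply, Fin.sum_univ_two, J, show star t = -t from h]⟩

@[simp] theorem u00 (t : Q) (h : Sk t) : en (u t h) 0 0 = 1 := rfl
@[simp] theorem u01 (t : Q) (h : Sk t) : en (u t h) 0 1 = t := rfl
@[simp] theorem u10 (t : Q) (h : Sk t) : en (u t h) 1 0 = 0 := rfl
@[simp] theorem u11 (t : Q) (h : Sk t) : en (u t h) 1 1 = 1 := rfl
@[simp] theorem v00 (t : Q) (h : Sk t) : en (v t h) 0 0 = 1 := rfl
@[simp] theorem v01 (t : Q) (h : Sk t) : en (v t h) 0 1 = 0 := rfl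
@[simp] theorem v10 (t : Q) (h : Sk t) : en (v t h) 1 0 = t := rfl
@[simp] theorem v11 (t : Q) (h : Sk t) : en (v t h) 1 1 = 1 := rfl

/-- Weyl elements. -/
def w (p : Q) (h : Sk p) : UH (J Q) := u p h * v (-p⁻¹) h.inv.neg * u p h

theorem w00 {p : Q} (h : Sk p) (h0 : p ≠ 0) : en (w p h) 0 0 = 0 := by simp [w, en_mul, h0]
theorem w01 {p : Q} (h : Sk p) (h0 : p ≠ 0) : en (w p h) 0 1 = p := by simp [w, en_mul, h0]
theorem w10 {p : Q} (h : Sk p) (h0 : p ≠ 0) : en (w p h) 1 0 = -p⁻¹ := by simp [w, en_mul, h0]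
theorem w11 {p : Q} (h : Sk p) (h0 : p ≠ 0) : en (w p h) 1 1 = 0 := by simp [w, en_mul, h0]

theorem r00 (g : UH (J Q)) : star (en g 0 0) * en g 1 0 + star (en g 1 0) * en g 0 0 = 0 := rel g 0 0
theorem r01 (g : UH (J Q)) : star (en g 0 0) * en g 1 1 + star (en g 1 0) * en g 0 1 = 1 := rel g 0 1
theorem r11 (g : UH (J Q)) : star (en g 0 1) * en g 1 1 + star (en g 1 1) * en g 0 1 = 0 := rel g 1 1

theorem sk_of {a c : Q} (hc : c ≠ 0) (h : star a * c + star c * a = 0) : Sk (a * c⁻¹) := by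
  have hs : star c ≠ 0 := star_ne_zero.2 hc
  unfold Sk
  rw [star_mul, star_inv₀, eq_neg_iff_add_eq_zero]
  have : (star c)⁻¹ * (star a * c + star c * a) * c⁻¹ = (star c)⁻¹ * star a + a * c⁻¹ := by
    rw [mul_add, add_mul, mul_assoc, mul_assoc, mul_inv_cancel₀ hc, mul_one, inv_mul_cancel_left₀ hs]
  rw [← this, h, mul_zero, zero_mul]

/-- Quotients of skew elements. -/
def Qt (Q : Type) [DivisionRing Q] [StarRing Q] : Prop :=
  ∀ a : Q, ∃ q : Q, q ≠ 0 ∧ Sk q ∧ Sk (a * q)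

theorem gen (hq : Qt Q) (H : Subgroup (UH (J Q))) (hu : ∀ t h, u t h ∈ H) (hv : ∀ t h, v t h ∈ H) :
    H = ⊤ := by
  have hw : ∀ p h, w p h ∈ H := fun p h => H.mul_mem (H.mul_mem (hu _ _) (hv _ _)) (hu _ _)
  have hB : ∀ g : UH (J Q), en g 1 0 = 0 → g ∈ H := by
    intro g hc
    have h1 := r01 g
    rw [hc, star_zero, zero_mul, add_zero] at h1
    have ha : en g 0 0 ≠ 0 := fun h => by rw [h, star_zero, zero_mul] at h1; exact zero_ne_one h1
    have hd : en g 1 1 ≠ 0 := fun h => by rw [h, mul_zero] at h1; exact zero_ne_one h1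
    obtain ⟨q, q0, hq1, hq2⟩ := hq (en g 0 0)
    have p0 : en g 0 0 * q ≠ 0 := mul_ne_zero ha q0
    have hd' : (en g 0 0 * q)⁻¹ * q = en g 1 1 := by
      have h2 : star (en g 0 0 * q) = -(en g 0 0 * q) := hq2
      rw [star_mul, show star q = -q from hq1, neg_mul, neg_inj] at h2
      rw [← h2, _root_.mul_inv_rev, mul_assoc, inv_mul_cancel₀ q0, mul_one]
      exact inv_eq_of_mul_eq_one_right h1
    have e : g = u _ (sk_of hd (r11 g)) * (w _ hq2 * w _ hq1.neg) := by
      have n0 : -q ≠ 0 := neg_ne_zero.2 q0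
      apply en_ext <;>
        simp only [en_mul, u00, u01, u10, u11, w00 _ p0, w01 _ p0, w10 _ p0, w11 _ p0, w00 _ n0,
          w01 _ n0, w10 _ n0, w11 _ n0, inv_neg, neg_neg, mul_zero, zero_mul, add_zero, zero_add,
          one_mul, neg_mul_neg, hd', hc]
      · rw [mul_inv_cancel_right₀ q0]
      · rw [inv_mul_cancel_right₀ hd]
    rw [e]
    exact H.mul_mem (hu _ _) (H.mul_mem (hw _ _) (hw _ _))
  refine eq_top_iff.2 fun g _ => ?_
  by_cases hc : en g 1 0 = 0
  · exact hB g hc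
  · obtain ⟨q, q0, hq1, -⟩ := hq 0
    have := hB (w q hq1 * (u _ (sk_of hc (r00 g)).neg * g)) (by
      simp [en_mul, w10 _ q0, w11 _ q0, hc])
    exact (H.mul_mem_cancel_left (hu _ _)).1 ((H.mul_mem_cancel_left (hw _ _)).1 this)

theorem u_add {t s : Q} (h : Sk t) (h' : Sk s) : u t h * u s h' = u (t + s) (h.add h') := by
  apply en_ext <;> simp [en_mul, add_comm]

theorem u_comm {t s : Q} (h : Sk t) (h' : Sk s) : u t h * u s h' = u s h' * u t h := by
  apply en_ext <;> simp [en_mul, add_comm]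

theorem low (hq : Qt Q) (N : Subgroup (UH (J Q))) (hN : N.Normal)
    (hc : ¬N ≤ Subgroup.center _) : ∃ g ∈ N, en g 1 0 ≠ 0 := by
  by_contra hn
  push Not at hn
  refine hc fun g hg => ?_
  obtain ⟨q, q0, hq1, -⟩ := hq 0
  have hall : ∀ g' ∈ N, en g' 0 1 = 0 := fun g' hg' => by
    have h1 := hn _ (hN.conj_mem g' hg' (w q hq1))
    have h2 : en (w q hq1 * g') 1 1 = 0 := by
      rw [← inv_mul_cancel_right (w q hq1 * g') (w q hq1), en_mul, h1, w11 _ q0]; simp
    rw [en_mul, w10 _ q0, w11 _ q0, zero_mul, add_zero] at h2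
    exact (mul_eq_zero.1 h2).resolve_left (neg_ne_zero.2 (inv_ne_zero q0))
  have hcen : Subgroup.centralizer {g} = ⊤ := gen hq _ (fun t h => ?_) (fun t h => ?_)
  · refine Subgroup.mem_center_iff.2 fun x => ?_
    have : x ∈ Subgroup.centralizer {g} := hcen ▸ Subgroup.mem_top _
    exact (Subgroup.mem_centralizer_singleton_iff.1 this)
  · rw [Subgroup.mem_centralizer_singleton_iff]
    have h1 := hall _ (hN.conj_mem g hg (u t h))
    have h2 := hn _ (hN.conj_mem g hg (u t h))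
    have e := inv_mul_cancel_right (u t h * g) (u t h)
    generalize u t h * g * (u t h)⁻¹ = y at h1 h2 e
    have a0 := congrArg (en · 0 0) e
    have a1 := congrArg (en · 0 1) e
    simp [en_mul, h1, h2, hn g hg, hall g hg] at a0 a1
    apply en_ext <;> simp [en_mul, hn g hg, hall g hg, ← a1, a0]
  · rw [Subgroup.mem_centralizer_singleton_iff]
    have h1 := hall _ (hN.conj_mem g hg (v t h))
    have h2 := hn _ (hN.conj_mem g hg (v t h))
    have e := inv_mul_cancel_right (v t h * g) (v t h)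
    generalize v t h * g * (v t h)⁻¹ = y at h1 h2 e
    have a0 := congrArg (en · 1 0) e
    have a1 := congrArg (en · 1 1) e
    simp [en_mul, h1, h2, hn g hg, hall g hg] at a0 a1
    apply en_ext <;> simp [en_mul, hn g hg, hall g hg, ← a0, a1]

/-- Diagonal elements. -/
def dg (a : Q) (ha : a ≠ 0) : UH (J Q) :=
  ⟨⟨!![a, 0; 0, (star a)⁻¹], !![a⁻¹, 0; 0, star a], by
    ext i j; fin_cases i <;> fin_cases j <;> simp [Matrix.mul_apply, Fin.sum_univ_two, ha],
    by ext i j; fin_cases i <;> fin_cases j <;> simp [Matrix.mul_apply, Fin.sum_univ_two, ha]⟩, by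
    rw [mem_UH]
    ext i j
    fin_cases i <;> fin_cases j <;> simp [Matrix.mul_apply, Fin.sum_univ_two, J, ha]⟩

theorem dg_u (a : Q) (ha : a ≠ 0) {t : Q} (h : Sk t) : dg a ha * u t h = u _ (h.cj a) * dg a ha := by
  have e0 : en (dg a ha) 0 0 = a := rfl
  have e1 : en (dg a ha) 0 1 = 0 := rfl
  have e2 : en (dg a ha) 1 0 = 0 := rfl
  have e3 : en (dg a ha) 1 1 = (star a)⁻¹ := rfl
  apply en_ext <;> simp [en_mul, e0, e1, e2, e3, ha]

theorem split (hq : Qt Q) (s : Q) (s0 : s ≠ 0) (s1 : s * s - 1 ≠ 0) (ss : star s = s)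
    (sc : ∀ x, s * x = x * s) : PSimple (UH (J Q)) := by
  intro N hN hc
  obtain ⟨g, hg, c0⟩ := low hq N hN hc
  let φ := QuotientGroup.mk' N
  have hr := (sk_of c0 (r00 g)).neg
  have hy : φ (u _ hr * g) = φ (u _ hr) := by
    rw [map_mul, show φ g = 1 from (QuotientGroup.eq_one_iff g).2 hg, mul_one]
  have y0 : en (u _ hr * g) 0 0 = 0 := by simp [en_mul, c0]
  have y1 : en (u _ hr * g) 1 0 = en g 1 0 := by simp [en_mul]
  generalize u _ hr * g = y at hy y0 y1
  have y2 := r01 y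
  rw [y0, star_zero, zero_mul, zero_add, y1] at y2
  have hv : ∀ t h, ∃ t' h', φ (v t h) = φ (u t' h') := fun t h => by
    have h' := h.cj (en g 1 0)⁻¹
    refine ⟨_, h', ?_⟩
    have e : y * u _ h' = v t h * y := by
      have : (star (en g 1 0))⁻¹ = en y 0 1 := inv_eq_of_mul_eq_one_right y2
      apply en_ext <;> simp [en_mul, y0, y1, this, mul_assoc, c0]
    have e2 := congrArg φ e
    rw [map_mul, map_mul, hy, ← map_mul, u_comm, map_mul] at e2
    exact (mul_right_cancel e2).symm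
  have hcen : ∀ t h x, φ x * φ (u t h) = φ (u t h) * φ x := fun t h x => by
    have : (Subgroup.centralizer {φ (u t h)}).comap φ = ⊤ := gen hq _ (fun t' h' => ?_) fun t' h' => ?_
    · have hx : x ∈ (Subgroup.centralizer {φ (u t h)}).comap φ := this ▸ Subgroup.mem_top _
      exact Subgroup.mem_centralizer_singleton_iff.1 hx
    · rw [Subgroup.mem_comap, Subgroup.mem_centralizer_singleton_iff, ← map_mul, u_comm, map_mul]
    · obtain ⟨t', h', e⟩ := hv t' h'
      rw [Subgroup.mem_comap, Subgroup.mem_centralizer_singleton_iff, e, ← map_mul, u_comm, map_mul]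
  have hu : ∀ t h, φ (u t h) = 1 := fun t h => by
    have c1 : ∀ x, (s * s - 1) * x = x * (s * s - 1) := fun x => by
      rw [sub_mul, mul_sub, mul_assoc, sc, ← mul_assoc, sc, mul_assoc, one_mul, mul_one]
    have h' : Sk ((s * s - 1)⁻¹ * t) := by
      unfold Sk at *
      rw [star_mul, star_inv₀, h, star_sub, star_mul, ss, star_one, neg_mul, neg_inj,
        mul_inv_eq_iff_eq_mul₀ s1, mul_assoc, ← c1, inv_mul_cancel_left₀ s1]
    have e := congrArg φ (dg_u s s0 h')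
    rw [map_mul, map_mul, hcen] at e
    have e2 : u _ (h'.cj s) = u _ h' * u t h := by
      have : s * ((s * s - 1)⁻¹ * t) * star s = t + (s * s - 1)⁻¹ * t := by
        rw [ss, mul_assoc, ← sc, ← mul_assoc, ← sub_eq_iff_eq_add]
        conv_lhs => rw [← one_mul ((s * s - 1)⁻¹ * t), ← mul_assoc, mul_one, ← sub_mul]
        exact mul_inv_cancel_left₀ s1 t
      apply en_ext <;> simp [en_mul, this]
    rw [e2, map_mul] at e
    exact (mul_eq_left.1 (mul_right_cancel e).symm)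
  refine gen hq N (fun t h => (QuotientGroup.eq_one_iff _).1 (hu t h)) fun t h => ?_
  obtain ⟨t', h', e⟩ := hv t h
  exact (QuotientGroup.eq_one_iff _).1 (e.trans (hu _ _))

end Split

section Quat
variable {k : Type} [Field k] {c₁ c₂ b : k}

theorem quot (a : ℍ[k,c₁,c₂,b]) : ∃ q : ℍ[k,c₁,c₂,b], q ≠ 0 ∧ star q = -q ∧ star (a * q) = -(a * q) := by
  let tr : ℍ[k,c₁,c₂,b] →ₗ[k] k :=
    (2 : k) • QuaternionAlgebra.reₗ c₁ c₂ b + c₂ • QuaternionAlgebra.imIₗ c₁ c₂ b
  have ht : ∀ x, tr x = 0 → star x = -x := fun x hx => by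
    rw [eq_neg_iff_add_eq_zero, QuaternionAlgebra.star_add_self']
    have : 2 * x.re + c₂ * x.imI = 0 := hx
    rw [this]; rfl
  have := LinearMap.ker_ne_bot_of_finrank_lt (f := tr.prod (tr ∘ₗ LinearMap.mulLeft k a)) (by
    rw [QuaternionAlgebra.finrank_eq_four]; simp)
  obtain ⟨q, hq, q0⟩ := Submodule.exists_mem_ne_zero_of_ne_bot this
  exact ⟨q, q0, ht _ (congrArg Prod.fst hq), ht _ (congrArg Prod.snd hq)⟩

theorem tr_one (h : c₂ ^ 2 + 4 * c₁ ≠ 0) : ∃ e : ℍ[k,c₁,c₂,b], star e + e = 1 := by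
  by_cases h2 : c₂ = 0
  · have : (2 : k) ≠ 0 := fun h' => h (by rw [h2, show (4 : k) = 2 * 2 by norm_num, h']; simp)
    refine ⟨⟨2⁻¹, 0, 0, 0⟩, ?_⟩
    rw [QuaternionAlgebra.star_add_self']; simp [this]
  · refine ⟨⟨0, c₂⁻¹, 0, 0⟩, ?_⟩
    rw [QuaternionAlgebra.star_add_self']; simp [h2]

end Quat

theorem frame {Q : Type} [Ring Q] [StarRing Q] {c d y e : Q} (hc : ∀ x, c * x = x * c)
    (hd : ∀ x, d * x = x * d) (h1 : c * d = 1) (sd : star d = d) (hy : star y * y = -c)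
    (hy' : y * star y = -c) (he : star e + e = 1) :
    ∃ P : (Matrix (Fin 2) (Fin 2) Q)ˣ, P.1ᴴ * diagonal ![c, 1] * P.1 = J Q := by
  have h2 : d * c = 1 := by rw [hd, h1]
  have he' : star e = 1 - e := eq_sub_of_add_eq he
  have k1 : star y * (d * y) = -1 := by rw [hd, ← mul_assoc, hy, neg_mul, h1]
  refine ⟨⟨!![1, 0; y, 1], !![1, 0; -y, 1], ?_, ?_⟩ *
    ⟨!![1, 0; 0, -(d * y)], !![1, 0; 0, star y], ?_, ?_⟩ *
    ⟨!![1, d * star e; 0, 1], !![1, -(d * star e); 0, 1], ?_, ?_⟩, ?_⟩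
  all_goals ext i j; fin_cases i <;> fin_cases j <;>
    simp [Matrix.mul_apply, Fin.sum_univ_two, J, sd]
  · rw [hy, add_neg_cancel]
  · rw [mul_add, ← mul_assoc (star y), hy, mul_neg, k1]; noncomm_ring
  · rw [add_mul, mul_assoc (e * d), hy, neg_mul, mul_assoc (star y), k1]; noncomm_ring
  · have : e * d * c * (d * star e) + (e * d * star y + -(star y * d)) *
        (y * (d * star e) + -(d * y)) = e * d * (c + star y * y) * (d * star e) -
        e * d * (star y * (d * y)) - star y * (d * y) * (d * star e) +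
        star y * (d * (d * y)) := by noncomm_ring
    have k2 : star y * (d * (d * y)) = -d := by rw [hd (d * y), ← mul_assoc, k1, neg_one_mul]
    rw [this, k2, k1, hy, he', ← hd e]; noncomm_ring
  · rw [mul_assoc, hy', mul_neg, neg_neg, h2]
  · rw [k1, neg_neg]

theorem hyp : HYP := by
  intro k _ _ c₁ c₂ b c c0 hd hu ⟨y, hy⟩
  classical
  obtain ⟨e, he⟩ := tr_one (b := b) hd
  obtain ⟨P, hP⟩ := frame (c := algebraMap k ℍ[k,c₁,c₂,b] c) (d := algebraMap k _ c⁻¹) (y := y)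
    (Algebra.commutes c) (Algebra.commutes _) (by rw [← map_mul, mul_inv_cancel₀ c0, map_one])
    (QuaternionAlgebra.star_coe _) (by rw [hy, map_neg])
    (by rw [← star_comm_self' y, hy, map_neg]) he
  refine ps_congr (cjE P hP) ?_
  letI : DivisionRing ℍ[k,c₁,c₂,b] := DivisionRing.ofIsUnitOrEqZero fun a =>
    or_iff_not_imp_right.2 (hu a)
  obtain ⟨s, hs⟩ := Infinite.exists_notMem_finset ({0, 1, -1} : Finset k)
  simp only [Finset.mem_insert, Finset.mem_singleton, not_or] at hs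
  refine split quot (algebraMap k _ s) ?_ ?_ (QuaternionAlgebra.star_coe _) (Algebra.commutes s)
  · exact (map_ne_zero_iff _ (algebraMap k _).injective).2 hs.1
  · rw [← map_mul, ← map_one (algebraMap k ℍ[k,c₁,c₂,b]), ← map_sub]
    refine (map_ne_zero_iff _ (algebraMap k _).injective).2 fun h => ?_
    rcases mul_self_eq_one_iff.1 (sub_eq_zero.1 h) with h | h
    · exact hs.2.1 h
    · exact hs.2.2 h

end Vale.Agent.P011UGB5
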